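import Crest.Agent.N207.GE.Rad
import Crest.Agent.N207.V.Area

/-!
# Row 207 (helper18): `VOLN` and `DIST`
-/

set_option autoImplicit false
set_option linter.unusedSectionVars false

open scoped ContDiff Manifold Topology RealInnerProductSpace ENNReal
open Set MeasureTheory Filter Metric
open Crest.GeometryTopology.CoordMetric Crest.GeometryTopology.ChartCurvature
  Crest.GeometryTopology.MetricFamily
open Crest.Agent.R247 Crest.Agent.R202.Tens

noncomputable section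

namespace Crest.Agent.N207.Sk

theorem vol_shell_ne_top (a r : ℝ) : volume (shell a r) ≠ ⊤ :=
  ((measure_mono (t := closedBall (0 : E4) r) fun x hx => by
    simpa using hx.2.le).trans_lt measure_closedBall_lt_top).ne

theorem vol_shell_le {a r : ℝ} (ha : 0 ≤ a) (har : a ≤ r) :
    volume.real (shell a r) ≤ 5 * (r ^ 4 - a ^ 4) := by
  have e : ∀ s : ℝ, 0 ≤ s → volume.real (closedBall (0 : E4) s) = s ^ 4 * (Real.pi ^ 2 / 2) :=
    fun s hs => by
      rw [Measure.real, InnerProductSpace.volume_closedBall_of_dim_even (k := 2) (by simp),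
        ENNReal.toReal_mul, ENNReal.toReal_pow, ENNReal.toReal_ofReal hs,
        ENNReal.toReal_ofReal (by positivity)]
      simp
  have h1 : volume.real (shell a r) ≤ volume.real (closedBall (0 : E4) r \ closedBall 0 a) :=
    measureReal_mono (fun x hx => ⟨by simpa using hx.2.le, by simpa using hx.1⟩)
      ((measure_mono sdiff_subset).trans_lt measure_closedBall_lt_top).ne
  rw [measureReal_sdiff (closedBall_subset_closedBall har) measurableSet_closedBall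
    measure_closedBall_lt_top.ne, e r (ha.trans har), e a ha] at h1
  have h2 : a ^ 4 ≤ r ^ 4 := pow_le_pow_left₀ ha har 4
  have h3 : Real.pi ^ 2 ≤ 10 := by nlinarith [Real.pi_lt_d2, Real.pi_pos]
  nlinarith

/-- a Dirichlet domain -/
def dir (Γ : Subgroup (E4 ≃ₗᵢ[ℝ] E4)) : Set E4 := {x | ∀ γ ∈ Γ, γ x 0 ≤ x 0}

theorem isClosed_dir (Γ : Subgroup (E4 ≃ₗᵢ[ℝ] E4)) : IsClosed (dir Γ) := by
  simp only [dir, ofPred_forall]
  exact isClosed_iInter fun γ => isClosed_iInter fun _ => isClosed_le (by fun_prop) (by fun_prop)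

theorem Grp.exists_dir {Γ : Subgroup (E4 ≃ₗᵢ[ℝ] E4)} (h : Grp Γ) (x : E4) :
    ∃ γ ∈ Γ, γ x ∈ dir Γ := by
  have := h.fin
  obtain ⟨γ, hγ⟩ := Finite.exists_max fun γ : Γ => γ.1 x 0
  exact ⟨γ.1, γ.2, fun δ hδ => hγ ⟨δ * γ.1, Γ.mul_mem hδ γ.2⟩⟩

theorem Grp.two_le {Γ : Subgroup (E4 ≃ₗᵢ[ℝ] E4)} (h : Grp Γ) : 2 ≤ Nat.card Γ := by
  have := h.fin
  exact (Subgroup.one_lt_card_iff_ne_bot Γ).2 h.ne

theorem Grp.null {Γ : Subgroup (E4 ≃ₗᵢ[ℝ] E4)} (h : Grp Γ) {γ : E4 ≃ₗᵢ[ℝ] E4} (hγ : γ ∈ Γ)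
    (h1 : γ ≠ 1) : volume {x : E4 | γ x 0 = x 0} = 0 := by
  let L : E4 →ₗ[ℝ] ℝ := (EuclideanSpace.proj (0 : Fin 4) : E4 →L[ℝ] ℝ).toLinearMap ∘ₗ
    (γ.toLinearEquiv.toLinearMap - LinearMap.id)
  have e : {x : E4 | γ x 0 = x 0} = (LinearMap.ker L : Set E4) := by
    ext x; simp [L, sub_eq_zero]
  rw [e]
  refine Measure.addHaar_submodule _ _ fun ht => h1 ?_
  set v : E4 := EuclideanSpace.single 0 1
  have hv : ‖v‖ = 1 := by simp [v]
  have h2 : γ.symm v ∈ (LinearMap.ker L : Set E4) := by rw [ht]; trivial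
  rw [← e] at h2
  have h3 : γ.symm v 0 = 1 := by simpa [v] using h2.symm
  have h4 : ‖γ.symm v - v‖ ^ 2 = 0 := by
    rw [norm_sub_sq_real, γ.symm.norm_map, hv]
    simp only [v, EuclideanSpace.inner_single_right, h3]
    norm_num
  have h5 : γ.symm v = v := by simpa [sub_eq_zero] using h4
  refine h.free γ hγ v (by rw [← norm_ne_zero_iff, hv]; norm_num) ?_
  conv_lhs => rw [← h5]
  simp

theorem Grp.vol_dir {Γ : Subgroup (E4 ≃ₗᵢ[ℝ] E4)} (h : Grp Γ) (a r : ℝ) :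
    Nat.card Γ * volume.real (shell a r ∩ dir Γ) ≤ volume.real (shell a r) := by
  have := h.fin
  have := Fintype.ofFinite Γ
  set D : Set E4 := shell a r ∩ {x | ∀ γ : Γ, γ ≠ 1 → γ.1 x 0 < x 0} with hD
  have hDo : IsOpen D := by
    refine (isOpen_shell a r).inter ?_
    simp only [ofPred_forall]
    exact isOpen_iInter_of_finite fun γ => isOpen_iInter_of_finite fun _ =>
      isOpen_lt (by fun_prop) (by fun_prop)
  have h1 : volume (shell a r ∩ dir Γ) ≤ volume D := by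
    refine measure_mono_ae ?_
    have : ∀ᵐ x : E4, ∀ γ : Γ, γ ≠ 1 → γ.1 x 0 ≠ x 0 := ae_all_iff.2 fun γ => by
      by_cases e : γ = 1
      · simp [e]
      · have := h.null γ.2 fun h => e (Subtype.ext h)
        simpa [ae_iff, e] using this
    filter_upwards [this] with x hx h2
    exact ⟨h2.1, fun γ hγ => lt_of_le_of_ne (h2.2 γ.1 γ.2) (hx γ hγ)⟩
  have h2 : volume (⋃ γ : Γ, γ.1 ⁻¹' D) = Nat.card Γ * volume D := by
    rw [measure_iUnion ?_ fun γ => (hDo.preimage γ.1.continuous).measurableSet]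
    · simp [fun γ : Γ => γ.1.measurePreserving.measure_preimage hDo.measurableSet.nullMeasurableSet]
    · intro γ δ hne
      refine disjoint_left.2 fun x h3 h4 => ?_
      have a1 := h3.2 (δ * γ⁻¹) (by rwa [Ne, mul_inv_eq_one, eq_comm])
      have a2 := h4.2 (γ * δ⁻¹) (by rwa [Ne, mul_inv_eq_one])
      simp only [Subgroup.coe_mul, Subgroup.coe_inv, LinearIsometryEquiv.coe_mul,
        Function.comp_apply, LinearIsometryEquiv.coe_inv, LinearIsometryEquiv.symm_apply_apply]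
        at a1 a2
      linarith
  have h3 : Nat.card Γ * volume (shell a r ∩ dir Γ) ≤ volume (shell a r) := by
    refine (mul_le_mul_right h1 _).trans (h2 ▸ measure_mono (iUnion_subset fun γ x hx => ?_))
    simpa [shell] using hx.1
  simpa [Measure.real] using ENNReal.toReal_mono (vol_shell_ne_top a r) h3

variable {M : Type*} [TopologicalSpace M] [ChartedSpace E4 M] [IsManifold 𝓘(ℝ, E4) ∞ M]
  [T3Space M] [ConnectedSpace M] [CompactSpace M] [MeasurableSpace M] [BorelSpace M] {N : Nk M}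

namespace Nk.Top

variable (h : N.Top) (g : Met 4 M)
include h

theorem image_dir {s r : ℝ} (hs : N.a ≤ s) (hr : r ≤ N.b) :
    N.Ψ '' shell s r = N.Ψ '' (shell s r ∩ dir N.Γ) := by
  refine Subset.antisymm ?_ (image_mono inter_subset_left)
  rintro _ ⟨x, hx, rfl⟩
  obtain ⟨γ, hγ, h1⟩ := h.grp.exists_dir x
  have h2 : γ x ∈ shell s r := by simpa [shell] using hx
  exact ⟨γ x, ⟨h2, h1⟩, ((h.fib x (shell_mono hs hr hx) _ (shell_mono hs hr h2)).2
    ⟨γ, hγ, rfl⟩).symm⟩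

/-- the volume of a part of the neck -/
theorem vol_image {s r η : ℝ} (hs : N.a ≤ s) (hsr : s ≤ r) (hr : r ≤ N.b)
    (hη : ∀ x ∈ shell s r, Near (g.pm N.Ψ x) η) :
    Nat.card N.Γ * g.vol.real (N.Ψ '' shell s r) ≤ (1 + 4 * η) ^ 2 * (5 * (r ^ 4 - s ^ 4)) := by
  have hm : MeasurableSet (shell s r ∩ dir N.Γ) :=
    (isOpen_shell s r).measurableSet.inter (isClosed_dir _).measurableSet
  have h1 : g.vol (N.Ψ '' shell s r) ≤
      ENNReal.ofReal ((1 + 4 * η) ^ 2) * volume (shell s r ∩ dir N.Γ) := by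
    rw [h.image_dir hs hr, ← setLIntegral_const]
    exact (V.vol_par_le h.par g (inter_subset_left.trans (shell_mono hs hr)) hm).trans
      (setLIntegral_mono' hm fun x hx => ENNReal.ofReal_le_ofReal (hη x hx.1).sqrt_det_le)
  have h2 := ENNReal.toReal_mono (ENNReal.mul_ne_top ENNReal.ofReal_ne_top
    ((measure_mono inter_subset_left).trans_lt (vol_shell_ne_top s r).lt_top).ne) h1
  rw [ENNReal.toReal_mul, ENNReal.toReal_ofReal (sq_nonneg _)] at h2
  have h3 := (h.grp.vol_dir s r).trans (vol_shell_le (h.a_pos.le.trans hs) hsr)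
  calc _ ≤ Nat.card N.Γ * ((1 + 4 * η) ^ 2 * volume.real (shell s r ∩ dir N.Γ)) :=
        mul_le_mul_of_nonneg_left h2 (Nat.cast_nonneg _)
    _ = (1 + 4 * η) ^ 2 * (Nat.card N.Γ * volume.real (shell s r ∩ dir N.Γ)) := by ring
    _ ≤ _ := mul_le_mul_of_nonneg_left h3 (sq_nonneg _)

theorem vol_image_le {s r : ℝ} (hs : N.a ≤ s) (hsr : s ≤ r) (hr : r ≤ N.b)
    (hη : ∀ x ∈ shell s r, Near (g.pm N.Ψ x) (1 / 100)) :
    g.vol.real (N.Ψ '' shell s r) ≤ 3 * (r ^ 4 - s ^ 4) := by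
  have h1 := h.vol_image g hs hsr hr hη
  have h2 : (2 : ℝ) ≤ Nat.card N.Γ := by exact_mod_cast h.grp.two_le
  have h3 : s ^ 4 ≤ r ^ 4 := pow_le_pow_left₀ (h.a_pos.le.trans hs) hsr 4
  have h4 : 0 ≤ g.vol.real (N.Ψ '' shell s r) := measureReal_nonneg
  nlinarith

theorem vol_Om {V r : ℝ} (hR : Rough g N 0 (1 / 100) V) (hr : r ∈ Icc N.a N.b) :
    g.vol.real (N.Om r) ≤ V * N.a ^ 4 + 3 * (r ^ 4 - N.a ^ 4) :=
  (measureReal_union_le _ _).trans (add_le_add hR.vol (h.vol_image_le g le_rfl hr.1 hr.2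
    fun x hx => (hR.jet x (shell_mono le_rfl hr.2 hx)).near))

/-- lower bound of the distance -/
theorem rad_le_d {η : ℝ} (hη : ∀ x ∈ shell N.a N.b, Near (g.pm N.Ψ x) η) (h4 : η ≤ 1 / 4)
    (p q : M) : (1 - 4 * η) * (N.rad p - N.rad q) ≤ g.d q p :=
  h.rad_lip g (by linarith) (fun x hx => (hη x hx).le_bil h4) p q

/-- upper bound of the distance along a segment -/
theorem d_le_seg {η : ℝ} (hη : ∀ x ∈ shell N.a N.b, Near (g.pm N.Ψ x) η) {x y : E4}
    (hs : segment ℝ x y ⊆ shell N.a N.b) : g.d (N.Ψ x) (N.Ψ y) ≤ (1 + 4 * η) * ‖y - x‖ :=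
  d_seg h.par g (by linarith [(hη x (hs (left_mem_segment _ _ _))).nonneg]) hs
    fun z hz => (hη z (hs hz)).bil_le

/-- radial segments -/
theorem d_le_rad {η : ℝ} (hη : ∀ x ∈ shell N.a N.b, Near (g.pm N.Ψ x) η) {x : E4}
    (hx : x ∈ shell N.a N.b) {s : ℝ} (hs : s ∈ Ioo N.a N.b) :
    g.d (N.Ψ x) (N.Ψ ((s / ‖x‖) • x)) ≤ (1 + 4 * η) * |s - ‖x‖| := by
  have h0 : 0 < ‖x‖ := h.a_pos.trans hx.1
  have hs0 : 0 < s := h.a_pos.trans hs.1
  refine (h.d_le_seg g hη ?_).trans (le_of_eq ?_)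
  · rintro _ ⟨u, v, hu, hv, huv, rfl⟩
    have e : ‖u • x + v • (s / ‖x‖) • x‖ = u * ‖x‖ + v * s := by
      rw [smul_smul, ← add_smul, norm_smul, Real.norm_of_nonneg (by positivity)]
      field_simp
    have := (convex_Ioo N.a N.b) (show ‖x‖ ∈ Ioo N.a N.b from hx) hs hu hv huv
    exact ⟨e ▸ this.1, e ▸ this.2⟩
  · rw [show (s / ‖x‖) • x - x = (s / ‖x‖ - 1) • x by module, norm_smul, Real.norm_eq_abs,
      ← abs_of_pos h0, ← abs_mul, abs_of_pos h0]
    congr 2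
    field_simp

/-- two points on the same sphere -/
theorem d_le_sph {η : ℝ} (hη : ∀ x ∈ shell N.a N.b, Near (g.pm N.Ψ x) η) {x y : E4} {s : ℝ}
    (hx : ‖x‖ = s) (hy : ‖y‖ = s) (h1 : 3 / 2 * N.a ≤ s) (h2 : s < N.b) :
    g.d (N.Ψ x) (N.Ψ y) ≤ (1 + 4 * η) * (4 * s) := by
  have ha := h.a_pos
  have key : ∀ x y : E4, ‖x‖ = s → ‖y‖ = s → ⟪x, y⟫ = 0 →
      g.d (N.Ψ x) (N.Ψ y) ≤ (1 + 4 * η) * (2 * s) := by
    intro x y hx hy hxy
    have h0 := (hη x ⟨by linarith, by linarith⟩).nonneg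
    refine (h.d_le_seg g hη ?_).trans (mul_le_mul_of_nonneg_left
      ((norm_sub_le _ _).trans (by linarith)) (by linarith))
    rintro _ ⟨u, v, hu, hv, huv, rfl⟩
    have e : ‖u • x + v • y‖ ^ 2 = (u ^ 2 + v ^ 2) * s ^ 2 := by
      rw [norm_add_sq_real, inner_smul_left, inner_smul_right, hxy, norm_smul, norm_smul, hx, hy,
        Real.norm_of_nonneg hu, Real.norm_of_nonneg hv]
      simp; ring
    have e1 : 1 / 2 ≤ u ^ 2 + v ^ 2 := by nlinarith [sq_nonneg (u - v)]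
    have e2 : u ^ 2 + v ^ 2 ≤ 1 := by nlinarith [mul_nonneg hu hv]
    refine ⟨lt_of_pow_lt_pow_left₀ 2 (norm_nonneg _) ?_,
      lt_of_pow_lt_pow_left₀ 2 (by linarith) ?_⟩ <;> rw [e] <;> nlinarith
  obtain ⟨w, hw, hw0⟩ : ∃ w ∈ (Submodule.span ℝ ({x, y} : Set E4))ᗮ, w ≠ 0 := by
    refine Submodule.exists_mem_ne_zero_of_ne_bot fun hb => ?_
    have h3 := Submodule.finrank_add_finrank_orthogonal (Submodule.span ℝ ({x, y} : Set E4))
    have h4 : Module.finrank ℝ (Submodule.span ℝ ({x, y} : Set E4)) ≤ 2 := by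
      classical
      have := finrank_span_finset_le_card (R := ℝ) ({x, y} : Finset E4)
      rw [Set.finrank, Finset.coe_pair] at this
      exact this.trans Finset.card_le_two
    rw [hb] at h3
    simp at h3
    omega
  have hw1 : ‖(s / ‖w‖) • w‖ = s := by
    rw [norm_smul, Real.norm_of_nonneg (div_nonneg (by linarith) (norm_nonneg _)),
      div_mul_cancel₀ _ (norm_ne_zero_iff.2 hw0)]
  have o : ∀ z ∈ ({x, y} : Set E4), ⟪z, (s / ‖w‖) • w⟫ = 0 := fun z hz => by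
    rw [inner_smul_right, hw z (Submodule.subset_span hz), mul_zero]
  have a1 := key _ _ hx hw1 (o x (by simp))
  have a2 := key _ _ hy hw1 (o y (by simp))
  have a3 : g.d (N.Ψ x) (N.Ψ y) ≤ g.d (N.Ψ x) (N.Ψ ((s / ‖w‖) • w)) +
      g.d (N.Ψ y) (N.Ψ ((s / ‖w‖) • w)) := dist_triangle_right (α := Sl g) _ _ _
  linarith

/-- a ball which is not inside `Om s` meets the sphere of radius `s` -/
theorem exists_sph {z : M} {R s : ℝ} (hs : s ∈ Ioo N.a N.b) (hz : N.rad z ≤ s)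
    (hn : ¬{y | g.d z y < R} ⊆ N.Om s) : ∃ x : E4, ‖x‖ = s ∧ g.d z (N.Ψ x) < R := by
  obtain ⟨p, hp, hp'⟩ := not_subset.1 hn
  have hc : IsPreconnected {y | g.d z y < R} := by rw [Met.d_gs]; exact g.gs.ball_conn z R
  have hz' : z ∈ {y | g.d z y < R} :=
    lt_of_le_of_lt (by simp [Met.d] : g.d z z ≤ g.d z p) hp
  obtain ⟨q, hq, e⟩ := hc.intermediate_value hz' hp h.continuous_rad.continuousOn
    (show s ∈ Icc (N.rad z) (N.rad p) from
      ⟨hz, not_lt.1 fun h1 => hp' ((h.mem_Om (Ioo_subset_Ioc_self hs)).2 h1)⟩)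
  obtain ⟨x, -, rfl, e'⟩ := h.exists_of_rad (p := q) (e ▸ hs.1) (e ▸ hs.2)
  exact ⟨x, e'.trans e, hq⟩

end Nk.Top

theorem Rough.mono {g : Met 4 M} {m m' : ℕ} {η η' V V' : ℝ} (h : Rough g N m η V) (hm : m' ≤ m)
    (hη : η ≤ η') (hV : V ≤ V') : Rough g N m' η' V' :=
  ⟨fun x hx k hk i j => (h.jet x hx k (hk.trans hm) i j).trans hη,
    h.vol.trans (mul_le_mul_of_nonneg_right hV (by positivity))⟩

theorem late_Ioo {F : Flow M} {t : ℝ} (ht : t ∈ late F) : t ∈ Ioo 0 F.T :=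
  ⟨(half_pos F.hT).trans_le ht.1, ht.2⟩

theorem voln {F : Flow M} (hB : Base F) : VOLN F := by
  refine ⟨fun t _ N V h hR r hr => h.vol_Om _ hR hr, fun V => ?_⟩
  obtain ⟨κ, hκ, hlo⟩ := hB.c.lo _ (half_pos F.hT)
  refine ⟨⌈3072 / κ⌉₊, 2 + 512 * |V| / κ, 1, one_pos, fun t ht N h hR hb hK => ?_⟩
  have := hB.ok.int.fin t (late_Ioo ht)
  obtain ⟨z, hz⟩ := h.ne
  have ha := h.a_pos
  have hab := h.a_lt
  have hV : 0 ≤ 512 * |V| / κ := by positivity
  have h1 : F.hc.B t z (N.b / 4) ⊆ N.Om N.b := fun p hp => by_contra fun hn => by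
    have h2 := h.rad_le_d (F.m t) (fun x hx => (hR.jet x hx).near) (by norm_num) p z
    rw [h.rad_out hn, h.rad_In hz] at h2
    have h3 : (F.m t).d z p < N.b / 4 := hp
    nlinarith
  have h2 := (hlo t ht z (N.b / 4) ⟨by linarith, by linarith⟩).trans
    ((measureReal_mono h1).trans ((measureReal_union_le _ _).trans (add_le_add hR.vol le_rfl)))
  have h3 := h.vol_image (F.m t) le_rfl hab.le le_rfl fun x hx => (hR.jet x hx).near
  have h4 : V * N.a ^ 4 ≤ κ * N.b ^ 4 / 512 := by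
    have e1 : 512 * |V| * N.a ≤ κ * N.b := by
      have : 512 * |V| / κ * N.a ≤ N.b := by nlinarith
      rwa [div_mul_eq_mul_div, div_le_iff₀ hκ, mul_comm N.b] at this
    have e2 : N.a ^ 3 ≤ N.b ^ 3 := pow_le_pow_left₀ ha.le hab.le 3
    have e3 := mul_le_mul e1 e2 (by positivity) (mul_pos hκ (ha.trans hab)).le
    nlinarith [mul_le_mul_of_nonneg_right (le_abs_self V) (by positivity : 0 ≤ N.a ^ 4)]
  have h5 : κ * N.b ^ 4 / 512 ≤ (F.m t).vol.real (N.Ψ '' shell N.a N.b) := by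
    have : κ * (N.b / 4) ^ 4 ≤ V * N.a ^ 4 + (F.m t).vol.real (N.Ψ '' shell N.a N.b) := h2
    linarith
  have h6 : (Nat.card N.Γ : ℝ) * (κ * N.b ^ 4 / 512) ≤ 6 * N.b ^ 4 := by
    have := mul_le_mul_of_nonneg_left h5 (Nat.cast_nonneg (α := ℝ) (Nat.card N.Γ))
    have : 0 < N.a ^ 4 := by positivity
    have : 0 < N.b ^ 4 := pow_pos (by linarith) 4
    linarith
  have h7 : (Nat.card N.Γ : ℝ) ≤ 3072 / κ := by
    rw [le_div_iff₀ hκ]
    have : 0 < N.b ^ 4 := pow_pos (by linarith) 4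
    nlinarith
  exact_mod_cast h7.trans (Nat.le_ceil _)

theorem distN {F : Flow M} (hB : Base F) : DIST F := by
  intro V
  obtain ⟨κ, hκ, hlo⟩ := hB.c.lo _ (half_pos F.hT)
  set K : ℝ := 1 + (|V| + 13) / κ with hK
  have hK1 : 1 < K := by
    have : 0 < (|V| + 13) / κ := by positivity
    linarith
  refine ⟨2 * K + 7, 1 / K, by linarith, by positivity, fun t ht N η h hR hη hb hab => ?_⟩
  have := hB.ok.int.fin t (late_Ioo ht)
  have ha := h.a_pos
  have hN : ∀ x ∈ shell N.a N.b, Near ((F.m t).pm N.Ψ x) η := fun x hx => (hR.jet x hx).near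
  have hs : 3 / 2 * N.a ∈ Ioo N.a N.b := ⟨by linarith, by linarith⟩
  have key : ∀ z ∈ N.In, ∃ x : E4, ‖x‖ = 3 / 2 * N.a ∧ (F.m t).d z (N.Ψ x) < K * N.a := by
    intro z hz
    refine h.exists_sph _ hs (by rw [h.rad_In hz]; exact hs.1.le) fun h1 => ?_
    have h2 : K * N.a ≤ 1 := by
      rw [le_div_iff₀ (by linarith)] at hb; nlinarith
    have h3 := (hlo t ht z (K * N.a) ⟨by positivity, h2⟩).trans ((measureReal_mono h1).trans
      (h.vol_Om (F.m t) (hR.mono le_rfl hη (le_abs_self V)) (Ioo_subset_Icc_self hs)))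
    have h4 : K ≤ K ^ 4 := le_self_pow₀ hK1.le (by norm_num)
    have h5 : κ * K = κ + (|V| + 13) := by rw [hK]; field_simp
    have h6 : 0 < N.a ^ 4 := by positivity
    have h7 : (κ + (|V| + 13)) * N.a ^ 4 ≤ κ * (K * N.a) ^ 4 := by
      rw [← h5, mul_pow, ← mul_assoc]; gcongr
    nlinarith
  have tri : ∀ p q r : M, (F.m t).d p r ≤ (F.m t).d p q + (F.m t).d q r := fun p q r =>
    dist_triangle (α := Sl (F.m t)) p q r
  have sym : ∀ p q : M, (F.m t).d p q = (F.m t).d q p := fun p q => dist_comm (α := Sl (F.m t)) p q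
  have sph : ∀ x y : E4, ‖x‖ = 3 / 2 * N.a → ‖y‖ = 3 / 2 * N.a →
      (F.m t).d (N.Ψ x) (N.Ψ y) ≤ 7 * N.a := fun x y hx hy =>
    (h.d_le_sph _ hN hx hy le_rfl hs.2).trans (by nlinarith)
  intro z hz
  obtain ⟨y, hy, hzy⟩ := key z hz
  refine ⟨fun x hx => ⟨?_, ?_⟩, fun p hp => ?_, fun z' hz' => ?_⟩
  · have := h.rad_le_d (F.m t) hN (by linarith) (N.Ψ x) z
    rwa [h.rad_Ψ hx, h.rad_In hz] at this
  · have h0 : 0 < ‖x‖ := ha.trans hx.1
    have h1 := h.d_le_rad (F.m t) hN hx hs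
    have h2 := sph y ((3 / 2 * N.a / ‖x‖) • x) hy (by
      rw [norm_smul, Real.norm_of_nonneg (by positivity), div_mul_cancel₀ _ h0.ne'])
    have h3 : |3 / 2 * N.a - ‖x‖| ≤ ‖x‖ := abs_le.2 ⟨by linarith, by linarith [hx.1]⟩
    have h4 := mul_le_mul_of_nonneg_left h3 (by linarith [(hN x hx).nonneg] : 0 ≤ 1 + 4 * η)
    have h5 := tri z (N.Ψ y) (N.Ψ x)
    have h6 := tri (N.Ψ y) (N.Ψ ((3 / 2 * N.a / ‖x‖) • x)) (N.Ψ x)
    have h7 := sym (N.Ψ ((3 / 2 * N.a / ‖x‖) • x)) (N.Ψ x)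
    nlinarith
  · have := h.rad_le_d (F.m t) hN (by linarith) p z
    rwa [h.rad_out hp, h.rad_In hz] at this
  · obtain ⟨y', hy', hzy'⟩ := key z' hz'
    have h1 := sph y y' hy hy'
    have h2 := tri z (N.Ψ y) z'
    have h3 := tri (N.Ψ y) (N.Ψ y') z'
    have h4 := sym (N.Ψ y') z'
    linarith

end Crest.Agent.N207.Sk

end
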