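import Crest.Agent.N207.Sk.Defs
import Crest.Agent.N207.AI.Par2
import Crest.Agent.N207.C.DistM
import Crest.Agent.N207.G.Tr

/-!
# Row 207 (helper18): the radial function of a neck, elementary distance comparison
-/

set_option autoImplicit false
set_option linter.unusedSectionVars false

open scoped ContDiff Manifold Topology
open Set MeasureTheory Filter
open Crest.GeometryTopology.CoordMetric Crest.GeometryTopology.ChartCurvature
  Crest.GeometryTopology.MetricFamily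
open Crest.Agent.R247 Crest.Agent.R202.Tens

noncomputable section

namespace Crest.Agent.N207.Sk

/-! ### matrices close to the identity -/

/-- the entries of `G - 1` are at most `η` -/
def Near (G : Matrix (Fin 4) (Fin 4) ℝ) (η : ℝ) : Prop :=
  ∀ i j, |G i j - (1 : Matrix (Fin 4) (Fin 4) ℝ) i j| ≤ η

theorem JG.near {m : ℕ} {G : MetricField 4} {x : E4} {s η : ℝ} (h : JG m G x s η) :
    Near (G x) η := fun i j => by
  simpa [J1, dv] using h 0 (Nat.zero_le _) i j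

theorem Near.nonneg {G : Matrix (Fin 4) (Fin 4) ℝ} {η : ℝ} (h : Near G η) : 0 ≤ η :=
  (abs_nonneg _).trans (h 0 0)

theorem Near.mono {G : Matrix (Fin 4) (Fin 4) ℝ} {η η' : ℝ} (h : Near G η) (h' : η ≤ η') :
    Near G η' := fun i j => (h i j).trans h'

theorem Near.bil_abs {G : Matrix (Fin 4) (Fin 4) ℝ} {η : ℝ} (h : Near G η) (v : E4) :
    |bil G v v - ‖v‖ ^ 2| ≤ 4 * η * ‖v‖ ^ 2 := by
  have hn : ‖v‖ ^ 2 = ∑ i, v i ^ 2 := by simp [EuclideanSpace.norm_sq_eq]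
  have e : bil G v v - ‖v‖ ^ 2 =
      ∑ i, ∑ j, (G i j - (1 : Matrix (Fin 4) (Fin 4) ℝ) i j) * v i * v j := by
    simp only [bil_apply, hn, sub_mul, Finset.sum_sub_distrib, Matrix.one_apply, ite_mul, one_mul,
      zero_mul, Finset.sum_ite_eq, Finset.mem_univ, if_true, sq]
  rw [e]
  calc _ ≤ ∑ i, ∑ j, η * ((v i ^ 2 + v j ^ 2) / 2) := by
        refine (Finset.abs_sum_le_sum_abs _ _).trans (Finset.sum_le_sum fun i _ =>
          (Finset.abs_sum_le_sum_abs _ _).trans (Finset.sum_le_sum fun j _ => ?_))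
        rw [mul_assoc, abs_mul]
        refine mul_le_mul (h i j) (abs_le.2 ⟨?_, ?_⟩) (abs_nonneg _) h.nonneg
        · nlinarith [sq_nonneg (v i + v j)]
        · nlinarith [sq_nonneg (v i - v j)]
    _ = _ := by rw [hn]; simp only [Fin.sum_univ_four]; ring

theorem Near.le_bil {G : Matrix (Fin 4) (Fin 4) ℝ} {η : ℝ} (h : Near G η) (hη : η ≤ 1 / 4)
    (v : E4) : (1 - 4 * η) ^ 2 * ‖v‖ ^ 2 ≤ bil G v v := by
  have h1 := (abs_le.1 (h.bil_abs v)).1
  have h2 : (1 - 4 * η) ^ 2 ≤ 1 - 4 * η := by nlinarith [h.nonneg]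
  nlinarith [sq_nonneg ‖v‖]

theorem Near.bil_le {G : Matrix (Fin 4) (Fin 4) ℝ} {η : ℝ} (h : Near G η) (v : E4) :
    bil G v v ≤ (1 + 4 * η) ^ 2 * ‖v‖ ^ 2 := by
  have h1 := (abs_le.1 (h.bil_abs v)).2
  have h2 : 1 + 4 * η ≤ (1 + 4 * η) ^ 2 := by nlinarith [h.nonneg]
  nlinarith [sq_nonneg ‖v‖]

theorem abs_det_le {n : ℕ} (G : Matrix (Fin n) (Fin n) ℝ) : |G.det| ≤ ∏ i, ∑ j, |G j i| := by
  classical
  rw [Matrix.det_apply, Finset.prod_univ_sum]
  refine (Finset.abs_sum_le_sum_abs _ _).trans ?_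
  have e : ∀ σ : Equiv.Perm (Fin n), |Equiv.Perm.sign σ • ∏ i, G (σ i) i| = ∏ i, |G (σ i) i| :=
    fun σ => by
      rcases Int.units_eq_one_or (Equiv.Perm.sign σ) with h | h <;>
        simp [h, Finset.abs_prod]
  simp only [e]
  rw [← Finset.sum_image (s := Finset.univ) (g := fun σ : Equiv.Perm (Fin n) => (σ : Fin n → Fin n))
    (f := fun x => ∏ i, |G (x i) i|) fun a _ b _ hab => Equiv.ext (congrFun hab)]
  exact Finset.sum_le_sum_of_subset_of_nonneg (fun x _ => by simp)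
    fun x _ _ => Finset.prod_nonneg fun i _ => abs_nonneg _

theorem Near.sqrt_det_le {G : Matrix (Fin 4) (Fin 4) ℝ} {η : ℝ} (h : Near G η) :
    √G.det ≤ (1 + 4 * η) ^ 2 := by
  have h0 := h.nonneg
  have h1 : ∀ i, ∑ j, |G j i| ≤ 1 + 4 * η := fun i => by
    calc _ ≤ ∑ j, ((1 : Matrix (Fin 4) (Fin 4) ℝ) j i + η) := Finset.sum_le_sum fun j _ => by
          have := abs_le.1 (h j i)
          have h2 : 0 ≤ (1 : Matrix (Fin 4) (Fin 4) ℝ) j i := by
            rw [Matrix.one_apply]; split_ifs <;> norm_num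
          exact abs_le.2 ⟨by linarith, by linarith⟩
      _ = _ := by simp [Finset.sum_add_distrib, Matrix.one_apply]
  refine Real.sqrt_le_iff.2 ⟨by positivity, (le_abs_self _).trans ((abs_det_le G).trans ?_)⟩
  refine (Finset.prod_le_prod (fun i _ => Finset.sum_nonneg fun j _ => abs_nonneg _)
    fun i _ => h1 i).trans (le_of_eq ?_)
  simp only [Finset.prod_const, Finset.card_univ, Fintype.card_fin]; ring

theorem isOpen_shell (a b : ℝ) : IsOpen (shell a b) :=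
  (isOpen_lt continuous_const continuous_norm).inter (isOpen_lt continuous_norm continuous_const)

theorem shell_mono {a b a' b' : ℝ} (ha : a ≤ a') (hb : b' ≤ b) : shell a' b' ⊆ shell a b :=
  fun _ hx => ⟨ha.trans_lt hx.1, hx.2.trans_le hb⟩

/-! ### parametrisations -/

section par

variable {n : ℕ} {M : Type*} [TopologicalSpace M] [ChartedSpace (En n) M]
  [IsManifold 𝓘(ℝ, En n) ∞ M] {Ψ : En n → M} {U : Set (En n)}

/-- a function which is smooth in a parametrisation is smooth -/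
theorem contMDiffAt_of_par (hP : Par Ψ U) {y : En n} (hy : y ∈ U) {f : M → ℝ}
    (hf : ContDiffAt ℝ ∞ (fun z => f (Ψ z)) y) : ContMDiffAt 𝓘(ℝ, En n) 𝓘(ℝ, ℝ) ∞ f (Ψ y) := by
  obtain ⟨T, V, hV, h1, -, h2, h3, h4⟩ := Gs.exists_trans0 (Par.chart (Ψ y)) hP (ctr_mem _) hy
    (symm_ctr _).symm
  refine contMDiffAt_of_inCh (mem_chart_source (En n) _) ?_
  have h5 : ContDiffAt ℝ ∞ (fun z => f (Ψ (T z))) (ctr n (Ψ y)) :=
    ContDiffAt.comp (g := fun z => f (Ψ z)) _ (h2.symm ▸ hf) (h3.contDiffAt (hV.mem_nhds h1))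
  refine h5.congr_of_eventuallyEq ?_
  filter_upwards [hV.mem_nhds h1] with z hz
  rw [(h4 z hz).2]; rfl

theorem gam_of_const (g : Met n M) {f : M → ℝ} {p : M} {c : ℝ} (h : ∀ᶠ q in 𝓝 p, f q = c) :
    g.gam f f p = 0 := by
  have h1 : ContinuousAt (chartAt (En n) p).symm (ctr n p) :=
    (chartAt (En n) p).continuousAt_symm (ctr_mem p)
  rw [ContinuousAt, symm_ctr] at h1
  have h2 : Bo84.inCh n p f =ᶠ[𝓝 (ctr n p)] fun _ => c := h1.eventually h
  simp [Met.gam, Bo84.gam, pderiv, h2.fderiv_eq]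

theorem gam_le_one {G : MetricField n} (hG : IsRiemannianOn G U) {x : En n} (hx : x ∈ U)
    {u : En n → ℝ} {c : ℝ} (hc : ∀ v, c ^ 2 * ‖v‖ ^ 2 ≤ bil (G x) v v)
    (hu : ‖fderiv ℝ u x‖ ≤ c) : Bo84.gam G u u x ≤ 1 := by
  rw [Bo84.gam_eq_bil hG hx]
  set w := Bo84.grad G u x
  have h1 : bil (G x) w w ≤ c * ‖w‖ := by
    rw [Bo84.bil_grad hG hx]
    exact (le_abs_self _).trans (((fderiv ℝ u x).le_opNorm w).trans
      (mul_le_mul_of_nonneg_right hu (norm_nonneg _)))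
  have h2 := hc w
  have h3 := Bo84.bil_self_nonneg hG hx w
  by_contra! h4
  nlinarith

variable [T3Space M] [ConnectedSpace M] [CompactSpace M]

/-- the distance is at most the length of a segment -/
theorem d_seg (hP : Par Ψ U) (g : Met n M) {C : ℝ} (hC0 : 0 ≤ C) {x y : En n}
    (hs : segment ℝ x y ⊆ U) (hC : ∀ z ∈ segment ℝ x y, ∀ v, bil (g.pm Ψ z) v v ≤ C ^ 2 * ‖v‖ ^ 2) :
    g.d (Ψ x) (Ψ y) ≤ C * ‖y - x‖ := by
  rw [Met.d_gs]
  refine Dist.GS.d_le fun f hf => (le_abs_self _).trans ?_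
  refine (convex_segment x y).norm_image_sub_le_of_norm_fderiv_le (𝕜 := ℝ)
    (f := fun z => f (Ψ z)) (fun z hz => ((hP.contDiffOn_comp hf.1).contDiffAt
      (hP.isOpen.mem_nhds (hs hz))).differentiableAt (by simp)) (fun z hz => ?_)
    (left_mem_segment _ _ _) (right_mem_segment _ _ _)
  refine ContinuousLinearMap.opNorm_le_bound _ hC0 fun v => ?_
  have h1 := Bo84.bil_sq_le (hP.riem g) (hs hz) (Bo84.grad (g.pm Ψ) (fun z => f (Ψ z)) z) v
  rw [← Bo84.gam_eq_bil (hP.riem g) (hs hz), ← hP.par_gam g hf.1 hf.1 (hs hz),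
    Bo84.bil_grad (hP.riem g) (hs hz)] at h1
  have h2 : g.gam f f (Ψ z) ≤ 1 := hf.2 _
  have h3 := Bo84.bil_self_nonneg (hP.riem g) (hs hz) v
  refine abs_le_of_sq_le_sq' ?_ (by positivity) |> abs_le.2
  nlinarith [hC z hz v]

end par

/-- a smooth version of `s ↦ s - a` on `[a, b]`, constant near both ends -/
theorem exists_clamp (a b : ℝ) {ε : ℝ} (hε : 0 < ε) : ∃ φ : ℝ → ℝ, ContDiff ℝ ∞ φ ∧
    (∀ s, |deriv φ s| ≤ 1) ∧ (∀ s, s < a + ε → φ s = 0) ∧ (∀ s, b - ε < s → φ s = φ b) ∧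
    ∀ s ∈ Icc a b, s - a - 6 * ε ≤ φ s ∧ φ s ≤ s - a := by
  obtain ⟨ψ, hψ, hd, -, hz, hb⟩ := Dist.exists_psi hε
  have hψd : ∀ s, HasDerivAt ψ (deriv ψ s) s := fun s =>
    (hψ.differentiable (by simp) s).hasDerivAt
  refine ⟨fun s => ψ (b - 2 * ε - ψ (b - 2 * ε - s) - (a + 2 * ε)), hψ.comp ((contDiff_const.sub
    (hψ.comp (contDiff_const.sub contDiff_id))).sub contDiff_const), fun s => ?_, fun s hs => ?_,
    fun s hs => ?_, fun s hs => ⟨?_, ?_⟩⟩
  · have h1 : HasDerivAt (fun s => ψ (b - 2 * ε - ψ (b - 2 * ε - s) - (a + 2 * ε))) _ s :=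
      (hψd _).comp s ((((hψd _).comp s ((hasDerivAt_id s).const_sub
        (b - 2 * ε))).const_sub (b - 2 * ε)).sub_const (a + 2 * ε))
    rw [h1.deriv]
    simp only [mul_neg, mul_one, neg_neg]
    rw [abs_of_nonneg (mul_nonneg (hd _).1 (hd _).1)]
    exact mul_le_one₀ (hd _).2 (hd _).1 (hd _).2
  · have := (hb (b - 2 * ε - s)).1
    have := le_max_left (b - 2 * ε - s) 0
    exact hz _ (by linarith)
  · simp only
    rw [hz (b - 2 * ε - s) (by linarith), hz (b - 2 * ε - b) (by linarith)]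
  · refine le_trans ?_ (hb _).1
    refine le_trans ?_ (sub_le_sub_right (le_max_left _ _) _)
    have := (hb (b - 2 * ε - s)).2
    have h3 := hs.2
    rcases le_total (b - 2 * ε - s) 0 with h4 | h4
    · rw [max_eq_right h4] at this; linarith
    · rw [max_eq_left h4] at this; linarith
  · refine (hb _).2.trans (max_le ?_ ?_)
    · have := (hb (b - 2 * ε - s)).1
      have := le_max_left (b - 2 * ε - s) 0
      linarith
    · linarith [hs.1]

/-! ### the radial function -/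

open Classical in
/-- `a` inside, `|x|` on the neck, `b` outside -/
def Nk.rad {M : Type*} (N : Nk M) (p : M) : ℝ :=
  if h : p ∈ N.Ψ '' shell N.a N.b then ‖h.choose‖ else if p ∈ N.In then N.a else N.b

theorem Nk.Om_mono {M : Type*} (N : Nk M) {r r' : ℝ} (h : r ≤ r') : N.Om r ⊆ N.Om r' :=
  union_subset_union_right _ (image_mono (shell_mono le_rfl h))

theorem Nk.In_sub {M : Type*} (N : Nk M) (r : ℝ) : N.In ⊆ N.Om r := subset_union_left

variable {M : Type*} [TopologicalSpace M] [ChartedSpace E4 M] [IsManifold 𝓘(ℝ, E4) ∞ M]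
  {N : Nk M}

namespace Nk.Top

variable (h : N.Top)
include h

theorem norm_eq {x y : E4} (hx : x ∈ shell N.a N.b) (hy : y ∈ shell N.a N.b)
    (e : N.Ψ x = N.Ψ y) : ‖x‖ = ‖y‖ := by
  obtain ⟨γ, -, rfl⟩ := (h.fib x hx y hy).1 e
  exact (γ.norm_map x).symm

theorem rad_Ψ {x : E4} (hx : x ∈ shell N.a N.b) : N.rad (N.Ψ x) = ‖x‖ := by
  have h1 : N.Ψ x ∈ N.Ψ '' shell N.a N.b := mem_image_of_mem _ hx
  rw [Nk.rad, dif_pos h1]
  exact h.norm_eq h1.choose_spec.1 hx h1.choose_spec.2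

theorem rad_In {p : M} (hp : p ∈ N.In) : N.rad p = N.a := by
  rw [Nk.rad, dif_neg, if_pos hp]
  rintro ⟨x, hx, rfl⟩
  exact h.disj x hx hp

theorem rad_out {p : M} (hp : p ∉ N.Om N.b) : N.rad p = N.b := by
  rw [Nk.rad, dif_neg fun h => hp (Or.inr h), if_neg fun h => hp (Or.inl h)]

theorem rad_cases (p : M) : (p ∈ N.In ∧ N.rad p = N.a) ∨
    (∃ x ∈ shell N.a N.b, N.Ψ x = p ∧ N.rad p = ‖x‖) ∨ (p ∉ N.Om N.b ∧ N.rad p = N.b) := by
  by_cases hp : p ∈ N.Om N.b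
  · rcases hp with hp | ⟨x, hx, rfl⟩
    · exact Or.inl ⟨hp, h.rad_In hp⟩
    · exact Or.inr (Or.inl ⟨x, hx, rfl, h.rad_Ψ hx⟩)
  · exact Or.inr (Or.inr ⟨hp, h.rad_out hp⟩)

theorem rad_mem (p : M) : N.rad p ∈ Icc N.a N.b := by
  rcases h.rad_cases p with ⟨-, e⟩ | ⟨x, hx, -, e⟩ | ⟨-, e⟩ <;> rw [e]
  exacts [⟨le_rfl, h.a_lt.le⟩, ⟨hx.1.le, hx.2.le⟩, ⟨h.a_lt.le, le_rfl⟩]

theorem exists_of_rad {p : M} (h1 : N.a < N.rad p) (h2 : N.rad p < N.b) :
    ∃ x ∈ shell N.a N.b, N.Ψ x = p ∧ ‖x‖ = N.rad p := by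
  rcases h.rad_cases p with ⟨-, e⟩ | ⟨x, hx, e', e⟩ | ⟨-, e⟩
  exacts [absurd e h1.ne', ⟨x, hx, e', e.symm⟩, absurd e h2.ne]

theorem mem_Om {r : ℝ} (hr : r ∈ Ioc N.a N.b) {p : M} : p ∈ N.Om r ↔ N.rad p < r := by
  constructor
  · rintro (hp | ⟨x, hx, rfl⟩)
    · rw [h.rad_In hp]; exact hr.1
    · rw [h.rad_Ψ (shell_mono le_rfl hr.2 hx)]; exact hx.2
  · intro hp
    rcases h.rad_cases p with ⟨h1, -⟩ | ⟨x, hx, e', e⟩ | ⟨-, e⟩
    · exact Or.inl h1
    · exact Or.inr ⟨x, ⟨hx.1, e ▸ hp⟩, e'⟩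
    · linarith [hr.2]

theorem mem_cl {r : ℝ} (hr : r ∈ Ico N.a N.b) {p : M} :
    p ∈ N.In ∪ N.Ψ '' {x | N.a < ‖x‖ ∧ ‖x‖ ≤ r} ↔ N.rad p ≤ r := by
  constructor
  · rintro (hp | ⟨x, hx, rfl⟩)
    · rw [h.rad_In hp]; exact hr.1
    · rw [h.rad_Ψ ⟨hx.1, hx.2.trans_lt hr.2⟩]; exact hx.2
  · intro hp
    rcases h.rad_cases p with ⟨h1, -⟩ | ⟨x, hx, e', e⟩ | ⟨-, e⟩
    · exact Or.inl h1
    · exact Or.inr ⟨x, ⟨hx.1, e ▸ hp⟩, e'⟩
    · linarith [hr.2]

theorem mem_In {p : M} : p ∈ N.In ↔ N.rad p = N.a := by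
  refine ⟨h.rad_In, fun hp => ?_⟩
  rcases h.rad_cases p with ⟨h1, -⟩ | ⟨x, hx, -, e⟩ | ⟨-, e⟩
  exacts [h1, by linarith [hx.1], by linarith [h.a_lt]]

theorem continuous_rad : Continuous N.rad := by
  refine continuous_iff_lower_upperSemicontinuous.2 ⟨fun p y hy => ?_, fun p y hy => ?_⟩
  · rcases lt_or_ge y N.a with h1 | h1
    · exact Eventually.of_forall fun q => h1.trans_le (h.rad_mem q).1
    · obtain ⟨s, s1, s2⟩ := exists_between hy
      have hs : s ∈ Ioo N.a N.b := ⟨h1.trans_lt s1, s2.trans_le (h.rad_mem p).2⟩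
      have hs' := Ioo_subset_Ico_self hs
      filter_upwards [(h.cls s hs).isOpen_compl.mem_nhds
        (fun hp => not_le.2 s2 ((h.mem_cl hs').1 hp))] with q hq
      exact s1.trans (not_le.1 fun h2 => hq ((h.mem_cl hs').2 h2))
  · rcases lt_or_ge N.b y with h1 | h1
    · exact Eventually.of_forall fun q => (h.rad_mem q).2.trans_lt h1
    · have hs : y ∈ Ioc N.a N.b := ⟨(h.rad_mem p).1.trans_lt hy, h1⟩
      filter_upwards [(h.opn y hs).mem_nhds ((h.mem_Om hs).2 hy)] with q hq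
      exact (h.mem_Om hs).1 hq

theorem isClosed_In : IsClosed N.In := by
  have : N.In = N.rad ⁻¹' {N.a} := by ext p; exact h.mem_In
  rw [this]
  exact isClosed_singleton.preimage h.continuous_rad

variable [T3Space M] [ConnectedSpace M]

/-- a smooth function of the radius -/
theorem sm_comp_rad (g : Met 4 M) {c : ℝ}
    (hc : ∀ x ∈ shell N.a N.b, ∀ v, c ^ 2 * ‖v‖ ^ 2 ≤ bil (g.pm N.Ψ x) v v) {φ : ℝ → ℝ}
    (hφs : ContDiff ℝ ∞ φ) (hφd : ∀ s, |deriv φ s| ≤ c) {ε : ℝ} (hε : 0 < ε)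
    (lo : ∀ s, s < N.a + ε → φ s = φ N.a) (hi : ∀ s, N.b - ε < s → φ s = φ N.b) (p : M) :
    ContMDiffAt 𝓘(ℝ, E4) 𝓘(ℝ, ℝ) ∞ (fun q => φ (N.rad q)) p ∧
      g.gam (fun q => φ (N.rad q)) (fun q => φ (N.rad q)) p ≤ 1 := by
  have cst : ∀ k : ℝ, (∀ᶠ q in 𝓝 p, φ (N.rad q) = k) →
      ContMDiffAt 𝓘(ℝ, E4) 𝓘(ℝ, ℝ) ∞ (fun q => φ (N.rad q)) p ∧
      g.gam (fun q => φ (N.rad q)) (fun q => φ (N.rad q)) p ≤ 1 := fun k hk =>
    ⟨contMDiffAt_const.congr_of_eventuallyEq hk, by rw [gam_of_const g hk]; exact zero_le_one⟩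
  rcases h.rad_cases p with ⟨-, e⟩ | ⟨x, hx, rfl, -⟩ | ⟨-, e⟩
  · exact cst _ ((h.continuous_rad.continuousAt.eventually
      (gt_mem_nhds (a := N.a + ε) (by linarith))).mono fun q hq => lo _ hq)
  · have hx0 : x ≠ 0 := norm_pos_iff.1 (h.a_pos.trans hx.1)
    have e1 : (fun z => φ (N.rad (N.Ψ z))) =ᶠ[𝓝 x] fun z => φ ‖z‖ := by
      filter_upwards [(isOpen_shell _ _).mem_nhds hx] with z hz
      rw [h.rad_Ψ hz]
    have h1 := contMDiffAt_of_par h.par hx (f := fun q => φ (N.rad q))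
      ((hφs.contDiffAt.comp x (contDiffAt_norm ℝ hx0)).congr_of_eventuallyEq e1)
    refine ⟨h1, ?_⟩
    rw [h.par.par_gam' g hx (h1.mdifferentiableAt (by simp)) (h1.mdifferentiableAt (by simp))]
    refine gam_le_one (h.par.riem g) hx (hc x hx) ?_
    have h2 := (hφs.differentiable (by simp) ‖x‖).hasDerivAt.comp_hasFDerivAt x
      ((contDiffAt_norm (n := 1) ℝ hx0).differentiableAt (by simp)).hasFDerivAt
    rw [e1.fderiv_eq, show (fun z : E4 => φ ‖z‖) = φ ∘ norm from rfl, h2.fderiv, norm_smul]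
    have h3 := norm_fderiv_le_of_lipschitz ℝ (x₀ := x) (lipschitzWith_one_norm (E := E4))
    calc _ ≤ c * 1 := mul_le_mul (hφd _) (by simpa using h3) (norm_nonneg _)
          ((abs_nonneg _).trans (hφd 0))
      _ = c := mul_one c
  · exact cst _ ((h.continuous_rad.continuousAt.eventually
      (lt_mem_nhds (a := N.b - ε) (by linarith))).mono fun q hq => hi _ hq)

/-- the radial function is Lipschitz -/
theorem rad_lip [CompactSpace M] (g : Met 4 M) {c : ℝ} (hc0 : 0 ≤ c)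
    (hc : ∀ x ∈ shell N.a N.b, ∀ v, c ^ 2 * ‖v‖ ^ 2 ≤ bil (g.pm N.Ψ x) v v) (p q : M) :
    c * (N.rad p - N.rad q) ≤ g.d q p := by
  refine le_of_forall_pos_le_add fun δ hδ => ?_
  obtain ⟨ε, hε, hεδ⟩ : ∃ ε : ℝ, 0 < ε ∧ c * (6 * ε) ≤ δ :=
    ⟨δ / (6 * (c + 1)), by positivity, by
      rw [mul_div_assoc', mul_div_assoc', div_le_iff₀ (by positivity)]; nlinarith⟩
  obtain ⟨φ, hφs, hφd, lo, hi, hb⟩ := exists_clamp N.a N.b hε
  have key := h.sm_comp_rad g hc (φ := fun s => c * φ s) (contDiff_const.mul hφs) (fun s => by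
    rw [deriv_const_mul _ (hφs.differentiable (by simp) s), abs_mul, abs_of_nonneg hc0]
    exact mul_le_of_le_one_right hc0 (hφd s)) hε
    (fun s hs => by rw [lo s hs, lo N.a (by linarith)]) fun s hs => by rw [hi s hs]
  have h1 : c * φ (N.rad p) - c * φ (N.rad q) ≤ g.d q p := by
    rw [Met.d_gs]
    exact Dist.GS.L1.le_d (G := g.gs) (f := fun q => c * φ (N.rad q))
      ⟨fun p => (key p).1, fun p => (key p).2⟩ q p
  have h2 := mul_le_mul_of_nonneg_left (hb _ (h.rad_mem p)).1 hc0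
  have h3 := mul_le_mul_of_nonneg_left (hb _ (h.rad_mem q)).2 hc0
  linarith

end Nk.Top

end Crest.Agent.N207.Sk

end
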